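import Vale.Agent.P089.Bdl.B3
import Vale.Agent.P089.H499.Ind

/-!
# The traces of the idempotents of `C*_r(Γ)` form a countable set (helper348)
-/

set_option autoImplicit false

open scoped InnerProductSpace ComplexOrder Topology

namespace Vale.Agent.P089.Cnt

open Vale.Agent.P089 Vale.Agent.P086 Vale.Agent.P089.Op Vale.Agent.P089.Asm Vale.Agent.P089.Ind

section

variable {A : Type*} [NormedRing A] [CompleteSpace A]

/-- Close idempotents are similar. -/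
theorem similar_of_close {p q : A} (hp : p * p = p) (hq : q * q = q)
    (h : ‖2 * p - 1‖ * ‖p - q‖ < 1) : ∃ u : Aˣ, (u : A) * q = p * u := by
  have h1 : ‖(2 * p - 1) * (p - q)‖ < 1 := (norm_mul_le _ _).trans_lt h
  refine ⟨Units.oneSub ((2 * p - 1) * (p - q)) h1, ?_⟩
  have h2 : ((Units.oneSub ((2 * p - 1) * (p - q)) h1 : Aˣ) : A) =
      p * q + (1 - p) * (1 - q) := by
    rw [Units.val_oneSub]
    have h3 : (2 * p - 1) * (p - q) = 2 * (p * p) - 2 * (p * q) - p + q := by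
      noncomm_ring
    rw [h3, hp]
    noncomm_ring
  rw [h2]
  have h4 : (p * q + (1 - p) * (1 - q)) * q = p * (q * q) + (1 - p) * (q - q * q) := by
    noncomm_ring
  have h5 : p * (p * q + (1 - p) * (1 - q)) = (p * p) * q + (p - p * p) * (1 - q) := by
    noncomm_ring
  rw [h4, h5, hp, hq]
  simp

end

variable {Γ : Type} [Group Γ]

theorem ent_eq_tau0 (T : L2 Γ →L[ℂ] L2 Γ) : ent T 1 1 = tau0 T := by
  rw [tau0_apply, ent_dl]

theorem tau0_trace : ∀ a ∈ CstarR Γ, ∀ b ∈ CstarR Γ, tau0 (a * b) = tau0 (b * a) := by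
  classical
  refine trace_cstarR tau0 fun g h => ?_
  rw [tau0_lam, tau0_lam]
  have e : g * h = 1 ↔ h * g = 1 := mul_eq_one_comm
  by_cases h1 : g * h = 1
  · rw [if_pos h1, if_pos (e.1 h1)]
  · rw [if_neg h1, if_neg fun h2 => h1 (e.2 h2)]

/-- Close idempotents of `C*_r(Γ)` have the same trace. -/
theorem tau0_eq_of_close {P Q : L2 Γ →L[ℂ] L2 Γ} (hP : P ∈ CstarR Γ) (hQ : Q ∈ CstarR Γ)
    (hPP : P * P = P) (hQQ : Q * Q = Q) (h : ‖2 * P - 1‖ * ‖P - Q‖ < 1) : tau0 Q = tau0 P := by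
  have : CompleteSpace (CrG Γ) := by
    have h1 : IsClosed (CrG Γ : Set (L2 Γ →L[ℂ] L2 Γ)) :=
      StarSubalgebra.isClosed_topologicalClosure _
    exact h1.completeSpace_coe
  set p : CrG Γ := ⟨P, mem_CrG.2 hP⟩ with hp
  set q : CrG Γ := ⟨Q, mem_CrG.2 hQ⟩ with hq
  have hpp : p * p = p := Subtype.ext hPP
  have hqq : q * q = q := Subtype.ext hQQ
  have hn : ‖2 * p - 1‖ * ‖p - q‖ < 1 := by
    have h1 : ‖2 * p - 1‖ = ‖2 * P - 1‖ := rfl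
    have h2 : ‖p - q‖ = ‖P - Q‖ := rfl
    rw [h1, h2]
    exact h
  obtain ⟨u, hu⟩ := similar_of_close hpp hqq hn
  have h1 : q = (↑(u⁻¹) : CrG Γ) * (p * u) := by
    rw [← hu, ← mul_assoc, Units.inv_mul, one_mul]
  have h2 : Q = ((↑(u⁻¹) : CrG Γ) : L2 Γ →L[ℂ] L2 Γ) * (P * ((u : CrG Γ) : L2 Γ →L[ℂ] L2 Γ)) :=
    congrArg Subtype.val h1
  have hu1 : ((u : CrG Γ) : L2 Γ →L[ℂ] L2 Γ) ∈ CstarR Γ := mem_CrG.1 (u : CrG Γ).2
  have hu2 : ((↑(u⁻¹) : CrG Γ) : L2 Γ →L[ℂ] L2 Γ) ∈ CstarR Γ := mem_CrG.1 (↑(u⁻¹) : CrG Γ).2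
  have h3 : P * ((u : CrG Γ) : L2 Γ →L[ℂ] L2 Γ) ∈ CstarR Γ :=
    mem_CrG.1 (mul_mem (mem_CrG.2 hP) (u : CrG Γ).2)
  have h4 : ((u : CrG Γ) : L2 Γ →L[ℂ] L2 Γ) * ((↑(u⁻¹) : CrG Γ) : L2 Γ →L[ℂ] L2 Γ) = 1 :=
    congrArg Subtype.val (Units.mul_inv u)
  rw [h2, tau0_trace _ hu2 _ h3, mul_assoc, h4, mul_one]

theorem isSeparable_CstarR [Countable Γ] : TopologicalSpace.IsSeparable (CstarR Γ) := by
  have h1 : {T : L2 Γ →L[ℂ] L2 Γ | ∃ g, IsLam g T}.Countable := by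
    have h2 : {T : L2 Γ →L[ℂ] L2 Γ | ∃ g, IsLam g T} ⊆ Set.range fun g : Γ => lam g := by
      rintro T ⟨g, hT⟩
      exact ⟨g, (isLam_iff.1 hT).symm⟩
    exact (Set.countable_range _).mono h2
  exact (h1.isSeparable.span (R := ℂ)).closure

/-- The traces of the idempotents of `C*_r(Γ)`, `Γ` countable, form a countable set. -/
theorem countable_traces (Γ : Type) [Group Γ] [Countable Γ] :
    {z : ℂ | ∃ P ∈ CstarR Γ, P * P = P ∧ ent P 1 1 = z}.Countable := by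
  have h1 : TopologicalSpace.IsSeparable {P : L2 Γ →L[ℂ] L2 Γ | P ∈ CstarR Γ ∧ P * P = P} :=
    isSeparable_CstarR.mono fun P hP => hP.1
  obtain ⟨D, hD, hDc, hDd⟩ := h1.exists_countable_dense_subset
  refine (hDc.image fun P => tau0 P).mono ?_
  rintro z ⟨P, hP, hPP, rfl⟩
  have h2 : P ∈ closure D := hDd ⟨hP, hPP⟩
  have h3 : (0 : ℝ) < (‖2 * P - 1‖ + 1)⁻¹ := by positivity
  obtain ⟨Q, hQD, hQ⟩ := Metric.mem_closure_iff.1 h2 _ h3
  obtain ⟨hQ1, hQ2⟩ := hD hQD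
  refine ⟨Q, hQD, ?_⟩
  rw [ent_eq_tau0]
  refine tau0_eq_of_close hP hQ1 hPP hQ2 ?_
  rw [dist_eq_norm] at hQ
  have h4 : 0 ≤ ‖2 * P - 1‖ := norm_nonneg _
  calc ‖2 * P - 1‖ * ‖P - Q‖ ≤ ‖2 * P - 1‖ * (‖2 * P - 1‖ + 1)⁻¹ :=
        mul_le_mul_of_nonneg_left hQ.le h4
    _ < 1 := by
      rw [mul_inv_lt_iff₀ (by positivity)]
      linarith

/-- the traces pass to overgroups -/
theorem exists_trace_of_embedding {G Γ : Type} [Group G] [Group Γ] (ι : G →* Γ)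
    (hι : Function.Injective ι) {P : L2 G →L[ℂ] L2 G} (hP : P ∈ CstarR G) (hPP : P * P = P)
    (hPs : IsSelfAdjoint P) : ∃ Q ∈ CstarR Γ, Q * Q = Q ∧ ent Q 1 1 = ent P 1 1 := by
  obtain ⟨Q, hQ, hQQ, -, hQP⟩ := exists_ind ι hι hP hPP hPs
  refine ⟨Q, hQ, hQQ, ?_⟩
  rw [← hQP, ent_cpr, map_one]

end Vale.Agent.P089.Cnt
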