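import Mathlib.NumberTheory.Transcendental.Liouville.Basic
import Mathlib.Analysis.SpecificLimits.Basic
import Mathlib.Analysis.PSeries
import Mathlib.Tactic

/-!
# Lacunary binary sums (helper348)
-/

set_option autoImplicit false

namespace Vale.Agent.P089.Lac

/-- the lacunary binary sum `∑ 2^(-D m)` -/
noncomputable def bsum (D : ℕ → ℕ) : ℝ := ∑' m, (1 / 2 : ℝ) ^ (D m)

theorem summable_of {D : ℕ → ℕ} {N : ℕ} (h : ∀ m, N + m ≤ D m) :
    Summable fun m => (1 / 2 : ℝ) ^ (D m) := by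
  refine Summable.of_nonneg_of_le (fun m => by positivity) (fun m => ?_)
    (summable_geometric_of_lt_one (r := (1 / 2 : ℝ)) (by norm_num) (by norm_num))
  exact pow_le_pow_of_le_one (by norm_num) (by norm_num) (by have := h m; omega)

theorem bsum_le {D : ℕ → ℕ} {N : ℕ} (h : ∀ m, N + m ≤ D m) :
    bsum D ≤ 2 * (1 / 2 : ℝ) ^ N := by
  have h1 : HasSum (fun m : ℕ => (1 / 2 : ℝ) ^ N * (1 / 2 : ℝ) ^ m) ((1 / 2 : ℝ) ^ N * 2) :=
    (hasSum_geometric_two).mul_left _
  have h2 : bsum D ≤ (1 / 2 : ℝ) ^ N * 2 := by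
    refine hasSum_le (fun m => ?_) (summable_of h).hasSum h1
    rw [← pow_add]
    exact pow_le_pow_of_le_one (by norm_num) (by norm_num) (h m)
  linarith

theorem bsum_pos {D : ℕ → ℕ} {N : ℕ} (h : ∀ m, N + m ≤ D m) : 0 < bsum D :=
  (summable_of h).tsum_pos (fun m => by positivity) 0 (by positivity)

theorem le_add_of_strictMono {D : ℕ → ℕ} (hD : StrictMono D) (N m : ℕ) : D N + m ≤ D (m + N) := by
  induction m with
  | zero => simp
  | succ m ih =>
    have h1 : D (m + N) < D (m + 1 + N) := hD (by omega)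
    omega

theorem bsum_eq {D : ℕ → ℕ} (hD : StrictMono D) (N : ℕ) :
    bsum D = ∑ i ∈ Finset.range N, (1 / 2 : ℝ) ^ (D i) + bsum fun m => D (m + N) := by
  have h1 : Summable fun m => (1 / 2 : ℝ) ^ (D m) :=
    summable_of (N := 0) fun m => by have := hD.le_apply (x := m); omega
  exact (h1.sum_add_tsum_nat_add N).symm

theorem tail_pos {D : ℕ → ℕ} (hD : StrictMono D) (N : ℕ) : 0 < bsum fun m => D (m + N) :=
  bsum_pos (le_add_of_strictMono hD N)

theorem tail_le {D : ℕ → ℕ} (hD : StrictMono D) (N : ℕ) :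
    (bsum fun m => D (m + N)) ≤ 2 * (1 / 2 : ℝ) ^ (D N) :=
  bsum_le (le_add_of_strictMono hD N)

theorem bsum_lt_one {D : ℕ → ℕ} (hD : StrictMono D) (h2 : 2 ≤ D 0) : bsum D < 1 := by
  have h1 : bsum D ≤ 2 * (1 / 2 : ℝ) ^ 2 := bsum_le fun m => by
    have := le_add_of_strictMono hD 0 m
    simp only [add_zero] at this
    omega
  norm_num at h1
  linarith

/-- Sums over different subfamilies are different. -/
theorem bsum_lt {D : ℕ → ℕ} (hD : StrictMono D) {σ τ : ℕ → ℕ} (hσ : StrictMono σ)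
    (hτ : StrictMono τ) (N : ℕ) (h : ∀ i < N, σ i = τ i) (hN : σ N < τ N) :
    bsum (D ∘ τ) < bsum (D ∘ σ) := by
  rw [bsum_eq (hD.comp hσ) (N + 1), bsum_eq (hD.comp hτ) N, Finset.sum_range_succ]
  have h1 : ∑ i ∈ Finset.range N, (1 / 2 : ℝ) ^ ((D ∘ σ) i) =
      ∑ i ∈ Finset.range N, (1 / 2 : ℝ) ^ ((D ∘ τ) i) := by
    refine Finset.sum_congr rfl fun i hi => ?_
    rw [Function.comp_apply, Function.comp_apply, h i (Finset.mem_range.1 hi)]
  have h2 := tail_pos (hD.comp hσ) (N + 1)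
  have h3 := tail_le (hD.comp hτ) N
  have h4 : 2 * (1 / 2 : ℝ) ^ ((D ∘ τ) N) ≤ (1 / 2 : ℝ) ^ ((D ∘ σ) N) := by
    have h5 : (D ∘ σ) N + 1 ≤ (D ∘ τ) N := hD hN
    have h6 : (1 / 2 : ℝ) ^ ((D ∘ τ) N) ≤ (1 / 2 : ℝ) ^ ((D ∘ σ) N + 1) :=
      pow_le_pow_of_le_one (by norm_num) (by norm_num) h5
    rw [pow_succ] at h6
    linarith
  rw [h1]
  linarith

/-- very lacunary sums are Liouville numbers -/
theorem bsum_liouville {D : ℕ → ℕ} (hD : StrictMono D) (h : ∀ m, m * D m + 2 ≤ D (m + 1)) :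
    Liouville (bsum D) := by
  intro n
  obtain ⟨N, hN⟩ : ∃ N, N = n + 1 := ⟨_, rfl⟩
  have h1 : 2 ≤ D N := by
    have := h n
    rw [hN]
    omega
  refine ⟨∑ i ∈ Finset.range (N + 1), 2 ^ (D N - D i), 2 ^ D N, ?_, ?_, ?_⟩
  · exact one_lt_pow₀ (by norm_num) (by omega)
  all_goals
    have h2 : (((∑ i ∈ Finset.range (N + 1), 2 ^ (D N - D i) : ℤ)) : ℝ) / ((2 ^ D N : ℤ) : ℝ) =
        ∑ i ∈ Finset.range (N + 1), (1 / 2 : ℝ) ^ (D i) := by
      push_cast
      rw [Finset.sum_div]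
      refine Finset.sum_congr rfl fun i hi => ?_
      have h3 : D i ≤ D N := hD.monotone (Nat.lt_succ_iff.1 (Finset.mem_range.1 hi))
      rw [one_div, inv_pow, div_eq_iff (by positivity), ← div_eq_inv_mul, eq_div_iff (by positivity),
        ← pow_add]
      congr 1
      omega
    have h4 := bsum_eq hD (N + 1)
    have h5 := tail_pos hD (N + 1)
    have h6 := tail_le hD (N + 1)
  · rw [h2]
    intro h7
    linarith
  · rw [h2, h4, add_sub_cancel_left, abs_of_pos h5]
    refine h6.trans_lt ?_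
    push_cast
    rw [← pow_mul, ← one_div_pow]
    have h8 : D N * n + 2 ≤ D (N + 1) := by
      have h9 := h N
      nlinarith
    have h10 : (1 / 2 : ℝ) ^ (D (N + 1)) ≤ (1 / 2 : ℝ) ^ (D N * n + 2) :=
      pow_le_pow_of_le_one (by norm_num) (by norm_num) h8
    have h11 : (0 : ℝ) < (1 / 2 : ℝ) ^ (D N * n) := by positivity
    rw [pow_add] at h10
    norm_num at h10 h11 ⊢
    linarith

/-- a fast growing subfamily -/
theorem exists_fast {d : ℕ → ℕ} (hd : StrictMono d) :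
    ∃ φ : ℕ → ℕ, StrictMono φ ∧ 2 ≤ d (φ 0) ∧ ∀ m, m * d (φ m) + 2 ≤ d (φ (m + 1)) := by
  let φ : ℕ → ℕ := fun m => Nat.rec 2 (fun m a => a + 1 + (m * d a + 2)) m
  have h0 : φ 0 = 2 := rfl
  have h1 : ∀ m, φ (m + 1) = φ m + 1 + (m * d (φ m) + 2) := fun m => rfl
  refine ⟨φ, strictMono_nat_of_lt_succ fun m => by rw [h1]; omega, ?_, fun m => ?_⟩
  · rw [h0]
    exact hd.le_apply
  · have h2 : φ (m + 1) ≤ d (φ (m + 1)) := hd.le_apply
    rw [h1] at h2 ⊢
    omega

/-- the selection of one element from each pair `{2 m, 2 m + 1}` -/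
def sel (f : ℕ → Bool) (m : ℕ) : ℕ := 2 * m + (f m).toNat

theorem sel_strictMono (f : ℕ → Bool) : StrictMono (sel f) :=
  strictMono_nat_of_lt_succ fun m => by
    have h1 := Bool.toNat_le (f m)
    simp only [sel]
    omega

/-- The sums over different selections are different. -/
theorem bsum_sel_injective {D : ℕ → ℕ} (hD : StrictMono D) :
    Function.Injective fun f : ℕ → Bool => bsum (D ∘ sel f) := by
  classical
  intro f g hfg
  by_contra hne
  have hex : ∃ N, f N ≠ g N := Function.ne_iff.1 hne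
  have h1 := Nat.find_spec hex
  have h2 : ∀ i < Nat.find hex, f i = g i := fun i hi => not_not.1 (Nat.find_min hex hi)
  set N := Nat.find hex
  have h3 : ∀ f g : ℕ → Bool, (∀ i < N, f i = g i) → f N = false → g N = true →
      bsum (D ∘ sel g) < bsum (D ∘ sel f) := by
    intro f g h hf hg
    refine bsum_lt hD (sel_strictMono f) (sel_strictMono g) N (fun i hi => ?_) ?_
    · simp only [sel, h i hi]
    · simp [sel, hf, hg]
  cases hf : f N <;> cases hg : g N
  · exact h1 (hf.trans hg.symm)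
  · exact absurd hfg (h3 f g h2 hf hg).ne'
  · exact absurd hfg (h3 g f (fun i hi => (h2 i hi).symm) hg hf).ne
  · exact h1 (hf.trans hg.symm)

theorem sel_growth {D : ℕ → ℕ} (hD : StrictMono D) (h : ∀ m, m * D m + 2 ≤ D (m + 1))
    (f : ℕ → Bool) (m : ℕ) : m * (D ∘ sel f) m + 2 ≤ (D ∘ sel f) (m + 1) := by
  have h1 : sel f m + 1 ≤ sel f (m + 1) := sel_strictMono f (Nat.lt_succ_self m)
  have h2 : D (sel f m + 1) ≤ D (sel f (m + 1)) := hD.monotone h1
  have h3 := h (sel f m)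
  have h4 : m ≤ sel f m := (sel_strictMono f).le_apply
  have h5 : m * D (sel f m) ≤ sel f m * D (sel f m) := Nat.mul_le_mul_right _ h4
  simp only [Function.comp_apply]
  omega

end Vale.Agent.P089.Lac
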