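import Vale.Agent.P089.H348.Sub
import Vale.Agent.P089.H348.Lac
import Vale.Agent.P089.H348.Count
import Vale.Agent.P089.H499.Main
import Mathlib.Analysis.Real.Cardinality

/-!
# Continuum many counterexamples, with Liouville traces (helper348)
-/

set_option autoImplicit false

open scoped InnerProductSpace ComplexOrder Topology

namespace Vale.Agent.P089.Cnt

open Vale.Agent.P089 Vale.Agent.P086 Vale.Agent.P089.Op Vale.Agent.P089.Asm Vale.Agent.P089.Ind
open Vale.Agent.P089.BC (Detect)
open Module

/-- `G` is countable and `C*_r(G)` contains a projection of trace `x` which is detected modulo the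
image of the assembly map. -/
structure Good (G : Type) [Group G] (x : ℝ) : Prop where
  countable : Countable G
  proj : ∃ P ∈ CstarR G, P * P = P ∧ IsSelfAdjoint P ∧ ent P 1 1 = (x : ℂ) ∧
    ∃ (len : G → ℕ) (κ : ℝ), Detect P len κ

/-- A family of counterexamples indexed by the sequences of bits, with pairwise different
Liouville numbers as traces. -/
theorem exists_family : ∃ (G : (ℕ → Bool) → Type) (_ : ∀ f, Group (G f)) (x : (ℕ → Bool) → ℝ),
    Function.Injective x ∧ (∀ f, Liouville (x f) ∧ 0 < x f ∧ x f < 1) ∧ ∀ f, Good (G f) (x f) := by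
  obtain ⟨q, k, D, c, e, d, K, F, C', C, hG⟩ := exists_goodFam
  have hmono : StrictMono fun m => finrank (ZMod 2) (C m) := strictMono_nat_of_lt_succ fun m => by
    have := hG.dim_succ m
    omega
  obtain ⟨φ, hφ, hφ0, hφg⟩ := Lac.exists_fast hmono
  set E : ℕ → ℕ := fun m => finrank (ZMod 2) (C (φ m)) with hE
  have hEm : StrictMono E := hmono.comp hφ
  have hsel : ∀ f : ℕ → Bool, StrictMono (E ∘ Lac.sel f) := fun f => hEm.comp (Lac.sel_strictMono f)
  have key : ∀ f : ℕ → Bool, ∃ (G : Type) (_ : Group G), Good G (Lac.bsum (E ∘ Lac.sel f)) := by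
    intro f
    obtain ⟨G, hgrp, hc, P, hP, hPP, hPs, htr, len, κ, h1, h2, h3⟩ :=
      (hG.sub (hφ.comp (Lac.sel_strictMono f))).op
    exact ⟨G, hgrp, hc, P, hP, hPP, hPs, htr, len, κ, h1, h2, h3⟩
  choose G hgrp hgood using key
  refine ⟨G, hgrp, fun f => Lac.bsum (E ∘ Lac.sel f), Lac.bsum_sel_injective hEm,
    fun f => ⟨Lac.bsum_liouville (hsel f) (Lac.sel_growth hEm hφg f), ?_, ?_⟩, hgood⟩
  · exact Lac.tail_pos (hsel f) 0
  · refine Lac.bsum_lt_one (hsel f) ?_
    have h1 : E 0 ≤ E (Lac.sel f 0) := hEm.monotone (Nat.zero_le _)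
    exact hφ0.trans h1

/-- A countable group contains copies of only countably many members of a family of groups
with pairwise different traces. -/
theorem countable_embeddings {I : Type} (G : I → Type) [∀ i, Group (G i)] (x : I → ℝ)
    (hx : Function.Injective x) (hG : ∀ i, Good (G i) (x i)) (Γ : Type) [Group Γ] [Countable Γ] :
    {i | ∃ ι : G i →* Γ, Function.Injective ι}.Countable := by
  refine Set.MapsTo.countable_of_injOn (f := fun i => (x i : ℂ)) (t := {z : ℂ | ∃ P ∈ CstarR Γ,
    P * P = P ∧ ent P 1 1 = z}) ?_ ?_ (countable_traces Γ)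
  · rintro i ⟨ι, hι⟩
    obtain ⟨P, hP, hPP, hPs, htr, -⟩ := (hG i).proj
    obtain ⟨Q, hQ, hQQ, hQP⟩ := exists_trace_of_embedding ι hι hP hPP hPs
    exact ⟨Q, hQ, hQQ, hQP.trans htr⟩
  · intro i _ j _ hij
    exact hx (Complex.ofReal_injective hij)

open Cardinal in
/-- An equivalence relation with countable classes on the sequences of bits has continuum
many classes. -/
theorem exists_reps (r : Setoid (ℕ → Bool)) (h : ∀ f, {g | r f g}.Countable) :
    ∃ s : ℝ → (ℕ → Bool), ∀ x y, x ≠ y → ¬ r (s x) (s y) := by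
  have h1 : #(Quotient r) = 𝔠 := by
    refine le_antisymm ?_ ?_
    · have h2 : #(Quotient r) ≤ #(ℕ → Bool) := mk_quotient_le
      simpa using h2
    · by_contra hlt
      rw [not_le] at hlt
      have h3 : #(ℕ → Bool) = #(Σ q : Quotient r, {f : ℕ → Bool // Quotient.mk r f = q}) :=
        mk_congr (Equiv.sigmaFiberEquiv (Quotient.mk r)).symm
      have h4 : #(Σ q : Quotient r, {f : ℕ → Bool // Quotient.mk r f = q}) ≤ #(Quotient r) * ℵ₀ := by
        rw [mk_sigma, ← sum_const']
        refine sum_le_sum _ _ fun q => ?_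
        induction q using Quotient.inductionOn with
        | h f =>
          refine mk_le_aleph0_iff.2 ?_
          have h5 : {g : ℕ → Bool | Quotient.mk r g = Quotient.mk r f} ⊆ {g | r f g} := by
            intro g hg
            exact r.symm (Quotient.exact hg)
          exact ((h f).mono h5).to_subtype
      have h6 : #(Quotient r) * ℵ₀ < 𝔠 := mul_lt_of_lt aleph0_le_continuum hlt aleph0_lt_continuum
      have h7 : #(ℕ → Bool) = 𝔠 := by simp
      rw [← h3, h7] at h4
      exact absurd (h4.trans_lt h6) (lt_irrefl _)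
  rw [← mk_real] at h1
  obtain ⟨e⟩ := Cardinal.eq.1 h1.symm
  refine ⟨fun x => (e x).out, fun x y hxy h2 => hxy ?_⟩
  have h3 : Quotient.mk r (e x).out = Quotient.mk r (e y).out := Quotient.sound h2
  rw [Quotient.out_eq, Quotient.out_eq] at h3
  exact e.injective h3

/-- Continuum many pairwise non-isomorphic countable groups with detected projections whose
traces are pairwise different Liouville numbers; a countable group contains copies of only
countably many of them. -/
theorem exists_many : ∃ (G : ℝ → Type) (_ : ∀ t, Group (G t)) (x : ℝ → ℝ),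
    Function.Injective x ∧ (∀ t, Liouville (x t) ∧ 0 < x t ∧ x t < 1) ∧ (∀ t, Good (G t) (x t)) ∧
    (∀ s t, s ≠ t → IsEmpty (G s ≃* G t)) ∧
    ∀ (Γ : Type) [Group Γ] [Countable Γ], {t | ∃ ι : G t →* Γ, Function.Injective ι}.Countable := by
  obtain ⟨G, hgrp, x, hx, hL, hG⟩ := exists_family
  let r : Setoid (ℕ → Bool) :=
    { r := fun f g => Nonempty (G f ≃* G g)
      iseqv :=
        { refl := fun f => ⟨MulEquiv.refl _⟩
          symm := fun ⟨e⟩ => ⟨e.symm⟩
          trans := fun ⟨e⟩ ⟨e'⟩ => ⟨e.trans e'⟩ } }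
  obtain ⟨s, hs⟩ := exists_reps r fun f => by
    have := (hG f).countable
    refine (countable_embeddings G x hx hG (G f)).mono ?_
    rintro g ⟨e⟩
    exact ⟨e.symm.toMonoidHom, e.symm.injective⟩
  have hsinj : Function.Injective s := by
    intro a b hab
    by_contra hne
    exact hs a b hne (hab ▸ ⟨MulEquiv.refl _⟩)
  refine ⟨fun t => G (s t), fun t => hgrp _, fun t => x (s t), hx.comp hsinj, fun t => hL _,
    fun t => hG _, fun a b hab => ⟨fun e => hs a b hab ⟨e⟩⟩, fun Γ _ _ => ?_⟩
  exact countable_embeddings (fun t => G (s t)) (fun t => x (s t)) (hx.comp hsinj)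
    (fun t => hG _) Γ

end Vale.Agent.P089.Cnt
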