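import Vale.Agent.P089.Bdl.B3

/-!
# P089: subfamilies, and the trace of the projection as a lacunary binary sum (helper348)
-/

set_option autoImplicit false

open scoped InnerProductSpace ComplexOrder Topology

namespace Vale.Agent.P089

open Vale.Agent.P086 Filter Module Op

/-- The hypotheses on a family of graphs with codes. -/
structure GoodFam (q k D c e d K : ℕ) (F : Fam q) (C' C : Codes k F) : Prop where
  hK : 20 ≤ K
  hqk : q ≤ k
  he : 0 < e
  hd : 0 < d
  hC : F.Coloured K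
  hE : F.Expander D c e
  hS : F.SmallSets K (8 * d)
  hle : ∀ m, C' m ≤ C m
  hpat : ∀ m, F.pat k m ∈ C' m
  hfin : ∀ m, Module.finrank (ZMod 2) (C m) = Module.finrank (ZMod 2) (C' m) + 1
  honto : ∀ m, CodeOnto d (C' m)
  hdist : ∀ m, CodeDist e (C m)
  hub : ∀ m, Module.finrank (ZMod 2) (C m) ≤ 3 * F.n m
  hlb : ∀ m, 2 * F.n m ≤ Module.finrank (ZMod 2) (C' m)
  hgr : ∀ m, m + 4 * F.n m ≤ F.n (m + 1)

/-- the subfamily of the types `φ 0, φ 1, …` -/
def Fam.sub {q : ℕ} (F : Fam q) (φ : ℕ → ℕ) : Fam q where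
  n m := F.n (φ m)
  X m := F.X (φ m)
  col m := F.col (φ m)
  g m := F.g (φ m)

theorem Fam.sub_reads {q : ℕ} (F : Fam q) (φ : ℕ → ℕ) (m : ℕ) :
    ∀ (w : List (Letter q)) (x y : Fin (F.n (φ m))),
      (F.sub φ).Reads m x w y ↔ F.Reads (φ m) x w y
  | [], x, y => Iff.rfl
  | a :: w, x, y => by
    constructor
    · rintro ⟨z, h1, h2, h3⟩
      exact ⟨z, h1, h2, (Fam.sub_reads F φ m w z y).1 h3⟩
    · rintro ⟨z, h1, h2, h3⟩
      exact ⟨z, h1, h2, (Fam.sub_reads F φ m w z y).2 h3⟩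

theorem GoodFam.strictMono {q k D c e d K : ℕ} {F : Fam q} {C' C : Codes k F}
    (h : GoodFam q k D c e d K F C' C) : StrictMono F.n :=
  strictMono_nat_of_lt_succ fun m => by
    have h1 := h.hgr m
    have h2 := h.hE.two m
    omega

theorem GoodFam.sub {q k D c e d K : ℕ} {F : Fam q} {C' C : Codes k F}
    (h : GoodFam q k D c e d K F C' C) {φ : ℕ → ℕ} (hφ : StrictMono φ) :
    GoodFam q k D c e d K (F.sub φ) (fun m => C' (φ m)) (fun m => C (φ m)) where
  hK := h.hK
  hqk := h.hqk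
  he := h.he
  hd := h.hd
  hC :=
    { g_large := fun m => h.hC.g_large (φ m)
      proper := fun m => h.hC.proper (φ m)
      dist2 := fun m => h.hC.dist2 (φ m)
      piece := fun m x w x' m' y y' hw h1 h2 hne => by
        refine h.hC.piece (φ m) x w x' (φ m') y y' hw ((F.sub_reads φ m w x x').1 h1)
          ((F.sub_reads φ m' w y y').1 h2) fun heq => hne ?_
        have h3 : φ m = φ m' := congrArg Sigma.fst heq
        have h4 : m = m' := hφ.injective h3
        subst h4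
        have h5 : x = y := eq_of_heq (Sigma.mk.inj heq).2
        rw [h5] }
  hE :=
    { two := fun m => h.hE.two (φ m)
      conn := fun m => h.hE.conn (φ m)
      deg := fun m => h.hE.deg (φ m)
      girth := fun m => h.hE.girth (φ m)
      g_pos := fun m => h.hE.g_pos (φ m)
      size := fun m => h.hE.size (φ m)
      expand := fun m => h.hE.expand (φ m)
      sparse := fun m => h.hE.sparse (φ m) }
  hS := fun m => h.hS (φ m)
  hle := fun m => h.hle (φ m)
  hpat := fun m => h.hpat (φ m)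
  hfin := fun m => h.hfin (φ m)
  honto := fun m => h.honto (φ m)
  hdist := fun m => h.hdist (φ m)
  hub := fun m => h.hub (φ m)
  hlb := fun m => h.hlb (φ m)
  hgr := fun m => by
    have h1 : φ m + 1 ≤ φ (m + 1) := hφ (Nat.lt_succ_self m)
    have h2 : F.n (φ m + 1) ≤ F.n (φ (m + 1)) := h.strictMono.monotone h1
    have h3 := h.hgr (φ m)
    have h4 : m ≤ φ m := hφ.le_apply
    change m + 4 * F.n (φ m) ≤ F.n (φ (m + 1))
    omega

theorem GoodFam.dim_succ {q k D c e d K : ℕ} {F : Fam q} {C' C : Codes k F}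
    (h : GoodFam q k D c e d K F C' C) (m : ℕ) :
    finrank (ZMod 2) (C m) + m + 1 ≤ finrank (ZMod 2) (C (m + 1)) := by
  have h1 := h.hub m
  have h2 := h.hlb (m + 1)
  have h3 := h.hfin (m + 1)
  have h4 := h.hgr m
  omega

theorem exists_goodFam : ∃ (q k D c e d K : ℕ) (F : Fam q) (C' C : Codes k F),
    GoodFam q k D c e d K F C' C := by
  obtain ⟨q, k, D, c, e, d, K, F, C', C, hK, hqk, he, hd, hC, hE, hS, hle, hpat, hfin, honto,
    hdist, hub, hlb, hgr⟩ := family expanderStatement colourStatement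
  exact ⟨q, k, D, c, e, d, K, F, C', C, hK, hqk, he, hd, hC, hE, hS, hle, hpat, hfin, honto,
    hdist, hub, hlb, hgr⟩

/-- What the operator layer delivers for one family: a countable group `G`, a projection `P` in
`C*_r(G)` of trace `∑ 2^(-dim C m)`, and the trace differences needed by the assembly layer. -/
theorem GoodFam.op {q k D c e d K : ℕ} {F : Fam q} {C' C : Codes k F}
    (hG : GoodFam q k D c e d K F C' C) :
    ∃ (G : Type) (_ : Group G), Countable G ∧ ∃ P ∈ CstarR G, P * P = P ∧ IsSelfAdjoint P ∧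
      ent P 1 1 = ((∑' m, (1 / 2 : ℝ) ^ (finrank (ZMod 2) (C m)) : ℝ) : ℂ) ∧
      ∃ (len : G → ℕ) (κ : ℝ), len 1 = 0 ∧ (∀ g h, len (g * h) ≤ len g + len h) ∧
        ∀ L₀ : ℕ, ∃ L ≥ L₀, ∃ t : (L2 G →L[ℂ] L2 G) →L[ℂ] ℂ, ‖t‖ ≤ 2 ∧
          (∀ g h, t (lam (g * h)) = t (lam (h * g))) ∧ (∀ g, len g < L → t (lam g) = 0) ∧
          Real.exp (-κ * L) ≤ ‖t P‖ := by
  classical
  have hMon : MonsterStatement := monster glStatement
  have hInj : InjStatement := injStatement
  have hOrd : OrderStatement := orderStatement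
  have hKey : KeyStatement := keyStatement injStatement orderStatement
  have hGap : GapStatement := gapStatement
  have hRes : RestrictStatement := Conf.restrictStatement
  have hSup : SupportStatement := Conf.supportStatement
  have hAdm : AdmissibleStatement := admissibleStatement
  obtain ⟨hK, hqk, he, hd, hC, hE, hS, hle, hpat, hfin, honto,
    hdist, hub, hlb, hgr⟩ := hG
  obtain ⟨M⟩ := hMon q F K D c e (by omega) hC hE
  obtain ⟨hinj, hsinj, hsne, -⟩ := hInj q F K D c e M hK hC hE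
  have hord := hOrd q F K D c e M hK hC hE
  have hn0 : ∀ m, 0 < F.n m := fun m => by have := hE.two m; omega
  have hmono : StrictMono F.n := strictMono_nat_of_lt_succ fun m => by
    have h1 := hgr m
    have h2 := hn0 m
    omega
  have hontoC : ∀ m, CodeOnto d (C m) := by
    intro m B hB f
    obtain ⟨v, hv, hvf⟩ := honto m B hB f
    exact ⟨v, hle m hv, hvf⟩
  have hpatC : ∀ m, F.pat k m ∈ C m := fun m => hle m (hpat m)
  obtain ⟨hs1, hs2⟩ := hRes q F K M k d C hd hinj hord hS hn0 hontoC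
  obtain ⟨ε, B, hfd⟩ := exists_fibData hKey hGap hAdm (D := D) he hqk
  obtain ⟨T, P, hD⟩ := hfd M C hK hC hE hdist hpatC hinj hsinj hsne
  obtain ⟨Q, hQmem, hQQ, hQs, hQlim⟩ := hD.exists_Q hs1
  have hr0 : Tendsto (fun j : ℕ => (1 - ε) ^ j) atTop (𝓝 0) :=
    tendsto_pow_atTop_nhds_zero_of_lt_one (by linarith only [hD.eps_le]) (by linarith only [hD.eps_pos])
  have hperf : ∀ (χ : NN M C →+ ZMod 2) m h,
      M.Perfect (fun x => decode (conf M C χ x)) m h ↔
        ∀ y, conf M C χ (h * M.pos m y) = F.pat k m y := by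
    intro χ m h
    exact forall_congr' fun y => decode_pat_iff hqk F m y _
  set w : (NN M C →+ ZMod 2) → ℂ := fun χ => P (conf M C χ) (dl 1) 1 with hw
  have hw1 : ∀ (χ : NN M C →+ ZMod 2) m h y, (1 : M.G) = h * M.pos m y →
      M.Perfect (fun x => decode (conf M C χ x)) m h → w χ = (F.n m : ℂ)⁻¹ := by
    intro χ m h y hy hp
    rw [hw, ← one_div]
    exact hD.perfect _ (hs1 _ (conf_mem M C χ)) m h y hy ((hperf χ m h).1 hp)
  have hw0 : ∀ χ : NN M C →+ ZMod 2, (∀ m h y, (1 : M.G) = h * M.pos m y →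
      ¬ M.Perfect (fun x => decode (conf M C χ x)) m h) → w χ = 0 := by
    intro χ hp
    exact hD.imperfect _ (hs1 _ (conf_mem M C χ)) fun m h y hy hp' =>
      hp m h y hy ((hperf χ m h).2 hp')
  have hst : ∀ (χ : NN M C →+ ZMod 2) (j : ℕ),
      ‖⟪dl (1 : M.G), fibA (actN M C) χ (elB M C B ^ j) (dl 1)⟫_ℂ - w χ‖ ≤ (1 - ε) ^ j :=
    fun χ j => hD.state_le hs1 χ j
  -- dimensions
  have hd1 : ∀ m, finrank (ZMod 2) (C m) + m + 1 ≤ finrank (ZMod 2) (C (m + 1)) := by
    intro m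
    have h1 := hub m
    have h2 := hlb (m + 1)
    have h3 := hfin (m + 1)
    have h4 := hgr m
    omega
  have hdm : ∀ m, m ≤ finrank (ZMod 2) (C m) := by
    intro m
    induction m with
    | zero => exact Nat.zero_le _
    | succ m ih =>
      have h1 := hd1 m
      omega
  refine ⟨Gam M C, inferInstance, countable_Gam M C, Q, mem_CrG.1 hQmem, hQQ, hQs, ?_,
    lenG M C, ((4 * d * (k + q) : ℕ) : ℝ), lenG_one M C, lenG_mul M C, ?_⟩
  · have h1 := trace_conf_real M hqk (by omega) hC hE hmono hpatC hs1 hs2 hdm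
      (fun j => elB M C B ^ j) Q hQlim w _ hr0 hst hw1 hw0
    rw [← h1, trc, inner_dl]
    rfl
  · intro L₀
    -- choose the type
    obtain ⟨m₁, hm₁⟩ : ∃ m₁, 2 * d * (L₀ + 1) ≤ F.n m₁ :=
      ⟨2 * d * (L₀ + 1), hmono.le_apply⟩
    have hL : L₀ ≤ F.n m₁ / (2 * d) := by
      rw [Nat.le_div_iff_mul_le (by omega)]
      nlinarith only [hm₁]
    have h2d : 2 * d ≤ F.n m₁ := by nlinarith only [hm₁]
    refine ⟨F.n m₁ / (2 * d), hL, ?_⟩
    set C₁ : Codes k F := fun m => if m = m₁ then C' m else C m with hC₁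
    have hC₁m : C₁ m₁ = C' m₁ := by simp [hC₁]
    have hC₁n : ∀ m, m ≠ m₁ → C₁ m = C m := fun m hm => by simp [hC₁, hm]
    have hC₁le : ∀ m, C₁ m ≤ C m := by
      intro m
      by_cases hm : m = m₁
      · rw [hm, hC₁m]; exact hle m₁
      · rw [hC₁n m hm]
    have hpat₁ : ∀ m, F.pat k m ∈ C₁ m := by
      intro m
      by_cases hm : m = m₁
      · rw [hm, hC₁m]; exact hpat m₁
      · rw [hC₁n m hm]; exact hpatC m
    have honto₁ : ∀ m, CodeOnto d (C₁ m) := by
      intro m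
      by_cases hm : m = m₁
      · rw [hm, hC₁m]; exact honto m₁
      · rw [hC₁n m hm]; exact hontoC m
    obtain ⟨hr1, hr2⟩ := hRes q F K M k d C₁ hd hinj hord hS hn0 honto₁
    have hsup := hSup q F K M k d C₁ C m₁ hd hinj hord hS hn0 honto₁ hC₁le hC₁n
    have hnorm := Nsub_normal M C C₁
    obtain ⟨τ, hτn, hτ1, hτ0⟩ := exists_tau (Nsub M C C₁) (Nsub_locFin M C C₁)
    obtain ⟨t, htn, ht1, ht0, htc⟩ := exists_trdiff (Nsub M C C₁) (Nsub_locFin M C C₁)
    refine ⟨t, htn, htc, fun g hg => t_lam_eq_zero M hC₁le (F.n m₁) d hsup t ht0 g hg, ?_⟩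
    have h1 := trdiff_conf M hqk (by omega) hC hE hmono hC₁le m₁ hC₁n hpat₁ hr1 hr2 hs1 hs2
      τ tau0 (isTr_of_Nsub τ hτ1 hτ0) isTr_tau0 (fun j => elB M C B ^ j) Q hQlim w _ hr0 hst
      hw1 hw0
    have h2 : t Q = τ Q - tau0 Q := by
      have h3 := eq_of_lam_eq t (τ - (tau0 : (L2 (Gam M C) →L[ℂ] L2 (Gam M C)) →L[ℂ] ℂ))
        (fun γ => ?_) (fun j => elB M C B ^ j) Q hQlim
      · rw [h3, sub_apply]
      rw [sub_apply, tau0_lam]
      by_cases hγ1 : γ = 1
      · rw [if_pos hγ1, ht0 γ (Or.inr hγ1), hγ1, hτ1 1 (Subgroup.one_mem _), sub_self]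
      · by_cases hγ : γ ∈ Nsub M C C₁
        · rw [if_neg hγ1, ht1 γ hγ hγ1, hτ1 γ hγ, sub_zero]
        · rw [if_neg hγ1, ht0 γ (Or.inl hγ), hτ0 γ hγ, sub_zero]
    rw [hC₁m] at h1
    exact exp_le_norm_diff (C m₁) (C' m₁) d hd h2d (hfin m₁) (t Q) (h2.trans h1)

end Vale.Agent.P089
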